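import Crest.Agent.X212.Lxd19.Br_Mg
import Crest.Agent.X212.Num57.Idm
import Crest.Agent.X212.Lxd19.Deck
import Crest.Agent.X212.Cl74.Ly
import Crest.Agent.X212.Lk34.Fz
import Crest.Agent.X212.Flp68.Main
import Crest.Agent.X212.Flp40.End
import Crest.Agent.X212.Cqn41.Cj

/-!
# Row 212, LIX-NUM (helper99): the numbers of the fillers
-/

set_option autoImplicit false
noncomputable section

namespace Crest.Agent.X212.Num99
open An Nd18 M Rf65 G75 Lix26

variable {κ lam : Type} [Fintype κ] [Fintype lam] [DecidableEq lam] {Lm : LM κ lam}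

theorem flip : Flp68.FlipStmt κ lam :=
  fun _ _ _ _ _ _ _ _ _ _ _ _ _ _ _ d s hP ho hF hd hB hG fl A a i k hβ L a₁ =>
    let ⟨n, _, _, h1, _, h2, h3⟩ := Flp40.flip (Cqn41.cjx _ _ _ _) (Cqn41.cju _ _ _ _)
      (Dgr80.lima _ _ _) Sep15.Cls.cls s hP ho hF d hd hB hG fl A a i k hβ L a₁
    ⟨n, h1.adm, h2, h3⟩

/-- **NUM**, local form -/
theorem num (H : Lns95.LH Lm) (L : IxL κ (lam ⊕ lam) 8) : NumLS Lm :=
  have g := geo2 H Lxd19.deck
  have ex : AllL Lm fun J c δ l => ∀ z : J.Obc c, Go δ z {hp l false} →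
      Ix δ z {hp l false} ∅ (ia δ z (hp l false)) := fun S D i Wi A' h _ _ _ r n J c l a b d e f k j =>
    (locS L S D i Wi A' h r n J c l a b d e f k j).imp fun _ q =>
      ⟨q.1, fun δ hδ z g => ((q.2 δ hδ).ex z g).1⟩
  have fa := Num36.faS H ex
  have f := Sec57.fqdS g L
  numLS (Cl74.pylS H) fa f.1 (Lxd19.qa (fun _ _ _ D => Lk34.ker _ _ D) g ex) f.2
    (Flp68.one H L flip g fa f.1)

end Crest.Agent.X212.Num99
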